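import Vale.Agent.P207Z.Erg.Den

/-!
# Flows which commute with a countable group with a fundamental domain of finite measure
-/

set_option linter.all false

open MeasureTheory Filter Topology Set
open scoped Pointwise

namespace Vale.Agent.P207Z.MET

/-- the space `Y` with the measurable sets which are invariant under `Γ` -/
def Iv (Γ : Type*) (Y : Type*) : Type _ := Y

variable {Γ : Type*} [Group Γ] {Y : Type*} [MulAction Γ Y] [mY : MeasurableSpace Y]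

/-- the invariant measurable sets -/
@[reducible] def mI (Γ : Type*) [Group Γ] (Y : Type*) [MulAction Γ Y] [mY : MeasurableSpace Y] :
    MeasurableSpace Y where
  MeasurableSet' s := MeasurableSet[mY] s ∧ ∀ (g : Γ) x, g • x ∈ s ↔ x ∈ s
  measurableSet_empty := ⟨MeasurableSet.empty, fun _ _ => Iff.rfl⟩
  measurableSet_compl s h := ⟨h.1.compl, fun g x => not_congr (h.2 g x)⟩
  measurableSet_iUnion s h := ⟨MeasurableSet.iUnion fun i => (h i).1, fun g x => by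
    simp only [mem_iUnion, (h _).2 g x]⟩

lemma mI_le : mI Γ Y ≤ mY := fun _ h => h.1

instance : MeasurableSpace (Iv Γ Y) := mI Γ Y

/-- the finite invariant measure -/
noncomputable def muI (Γ : Type*) [Group Γ] [MulAction Γ Y] (m : Measure Y) (Z : Set Y) :
    Measure (Iv Γ Y) := (m.restrict Z).trim (mI_le (Γ := Γ))

lemma muI_apply (m : Measure Y) (Z : Set Y) {s : Set Y} (hs : MeasurableSet[mI Γ Y] s) :
    muI Γ m Z (s : Set Y) = m (s ∩ Z) :=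
  (trim_measurableSet_eq mI_le hs).trans (Measure.restrict_apply hs.1)

lemma measurable_iv {β : Type*} [MeasurableSpace β] {f : Y → β} (hf : Measurable f)
    (hi : ∀ (g : Γ) x, f (g • x) = f x) : @Measurable (Iv Γ Y) β _ _ f := fun s hs =>
  ⟨hf hs, fun g x => by
    change f (g • x) ∈ s ↔ f x ∈ s
    rw [hi]⟩

lemma measurable_of_iv {β : Type*} [MeasurableSpace β] {f : Y → β}
    (hf : @Measurable (Iv Γ Y) β _ _ f) : Measurable f := fun s hs => (hf hs).1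

lemma inv_of_iv {β : Type*} [MeasurableSpace β] [MeasurableSingletonClass β] {f : Y → β}
    (hf : @Measurable (Iv Γ Y) β _ _ f) (g : Γ) (x : Y) : f (g • x) = f x :=
  ((hf (measurableSet_singleton (f x))).2 g x).2 rfl

/-- the standing assumptions -/
structure GSys (Γ : Type*) [Group Γ] [MulAction Γ Y] (m : Measure Y) (Z : Set Y)
    (φ : ℝ → Y → Y) : Prop where
  act : FAct φ
  mp : ∀ n : ℤ, MeasurePreserving (φ n) m m
  comm : ∀ t (g : Γ) y, φ t (g • y) = g • φ t y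
  fund : IsFundamentalDomain Γ Z m
  fin : m Z ≠ ⊤

variable [Countable Γ] [MeasurableConstSMul Γ Y] {m : Measure Y} [SMulInvariantMeasure Γ Y m]
  {Z : Set Y} {φ : ℝ → Y → Y}

lemma GSys.finite (h : GSys Γ m Z φ) : IsFiniteMeasure (muI Γ m Z) :=
  ⟨(muI_apply m Z (@MeasurableSet.univ _ (mI Γ Y))).trans_lt (by
    rw [univ_inter]; exact h.fin.lt_top)⟩

lemma GSys.mpI (h : GSys Γ m Z φ) (n : ℤ) :
    @MeasurePreserving (Iv Γ Y) (Iv Γ Y) _ _ (φ n) (muI Γ m Z) (muI Γ m Z) := by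
  have h1 : @Measurable (Iv Γ Y) (Iv Γ Y) _ _ (φ n) := fun s hs =>
    ⟨(h.mp n).measurable hs.1, fun g x => by
      change φ n (g • x) ∈ s ↔ φ n x ∈ s
      rw [h.comm]
      exact hs.2 _ _⟩
  refine ⟨h1, Measure.ext fun (s : Set Y) hs => ?_⟩
  refine (Measure.map_apply h1 hs).trans ((muI_apply m Z (h1 hs)).trans
    (Eq.trans ?_ (muI_apply m Z hs).symm))
  change m (φ n ⁻¹' s ∩ Z) = m (s ∩ Z)
  have h2 : IsFundamentalDomain Γ (φ n ⁻¹' Z) m := h.fund.preimage_of_equiv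
    (h.mp n).quasiMeasurePreserving Function.bijective_id fun g x => h.comm n g x
  refine (h.fund.measure_set_eq h2 (h1 hs).1 fun g => Set.ext fun x => (h1 hs).2 g x).trans ?_
  exact (h.mp n).measure_preimage (hs.1.nullMeasurableSet.inter h.fund.nullMeasurableSet)

lemma ae_smul_all {p : Y → Prop} (h : ∀ᵐ x ∂m, p x) : ∀ᵐ x ∂m, ∀ g : Γ, p (g • x) :=
  ae_all_iff.2 fun g => (measurePreserving_smul g m).quasiMeasurePreserving.ae h

/-- the two measures have the same null sets -/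
lemma ae_muI (h : IsFundamentalDomain Γ Z m) {p : Y → Prop} :
    (∀ᵐ x : Iv Γ Y ∂(muI Γ m Z), p x) ↔ ∀ᵐ x ∂m, p x := by
  constructor
  · intro hp
    obtain ⟨N, h1, h2, h3⟩ := exists_measurable_superset_of_null (ae_iff.1 hp)
    exact measure_mono_null h1 (h.measure_zero_of_invariant N (fun g => Set.ext fun x =>
      mem_smul_set_iff_inv_smul_mem.trans (h2.2 _ _)) ((muI_apply m Z h2).symm.trans h3))
  · intro hp
    obtain ⟨N, h1, h2, h3⟩ := exists_measurable_superset_of_null (ae_iff.1 hp)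
    have h4 : MeasurableSet[mI Γ Y] (⋃ g : Γ, (fun x : Y => g • x) ⁻¹' N) := by
      refine ⟨MeasurableSet.iUnion fun g => measurable_const_smul g h2, fun g x => ?_⟩
      simp only [mem_iUnion, mem_preimage, smul_smul]
      exact ⟨fun ⟨k, hk⟩ => ⟨_, hk⟩, fun ⟨k, hk⟩ => ⟨k * g⁻¹, by rwa [inv_mul_cancel_right]⟩⟩
    refine measure_mono_null (t := ⋃ g : Γ, (fun x : Y => g • x) ⁻¹' N)
      (fun (x : Y) hx => mem_iUnion.2 ⟨1, ?_⟩) ((muI_apply m Z h4).trans ?_)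
    · change (1 : Γ) • x ∈ N
      rw [one_smul]
      exact h1 hx
    · exact measure_mono_null inter_subset_left (measure_iUnion_null fun g =>
        (measurePreserving_smul g m).quasiMeasurePreserving.preimage_null h3)

/-- almost invariant functions have invariant measurable versions -/
lemma aemeasurable_iv (h : IsFundamentalDomain Γ Z m) {β : Type*} [MeasurableSpace β]
    [MeasurableEq β] {f : Y → β} (hf : AEMeasurable f m)
    (hi : ∀ g : Γ, ∀ᵐ x ∂m, f (g • x) = f x) : @AEMeasurable (Iv Γ Y) β _ _ f (muI Γ m Z) := by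
  classical
  rcases isEmpty_or_nonempty Y with hY | ⟨⟨y0⟩⟩
  · exact (@measurable_of_empty (Iv Γ Y) β _ _ hY f).aemeasurable
  let G : Set Y := ⋂ g : Γ, {x | hf.mk f (g • x) = hf.mk f x}
  have hG : MeasurableSet G := MeasurableSet.iInter fun g =>
    measurableSet_eq_fun (hf.measurable_mk.comp (measurable_const_smul g)) hf.measurable_mk
  have hGi : ∀ (g : Γ) x, x ∈ G → g • x ∈ G := fun g x hx => mem_iInter.2 fun k => by
    change hf.mk f (k • g • x) = hf.mk f (g • x)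
    rw [smul_smul]
    exact (mem_iInter.1 hx (k * g)).trans (mem_iInter.1 hx g).symm
  refine ⟨fun x : Y => if x ∈ G then hf.mk f x else f y0, measurable_iv
    (Measurable.ite hG hf.measurable_mk measurable_const) fun g x => ?_, (ae_muI h).2 ?_⟩
  · by_cases hx : x ∈ G
    · rw [if_pos hx, if_pos (hGi g x hx)]
      exact mem_iInter.1 hx g
    · rw [if_neg hx, if_neg fun e => hx (by simpa using hGi g⁻¹ _ e)]
  · filter_upwards [ae_smul_all (Γ := Γ) hf.ae_eq_mk, ae_all_iff.2 hi, hf.ae_eq_mk] with x h1 h2 h3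
    have hx : x ∈ G := mem_iInter.2 fun g => (h1 g).symm.trans ((h2 g).trans h3)
    rw [if_pos hx, h3]

lemma aemeasurable_of_iv (h : IsFundamentalDomain Γ Z m) {β : Type*} [MeasurableSpace β]
    {f : Y → β} (hf : @AEMeasurable (Iv Γ Y) β _ _ f (muI Γ m Z)) : AEMeasurable f m :=
  ⟨hf.mk f, measurable_of_iv hf.measurable_mk, (ae_muI h).1 hf.ae_eq_mk⟩

lemma GSys.ae_orbit (h : GSys Γ m Z φ) {p : Y → Prop} (hp : ∀ᵐ x ∂m, p x) :
    ∀ᵐ x ∂m, ∀ (n : ℤ) (g : Γ), p (g • φ n x) :=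
  MET.ae_orbit (τ := fun n : ℤ => φ n) h.mp (ae_smul_all hp)

/-- a measurable conull set which is invariant under the group and the integer times -/
lemma GSys.exists_inv_set (h : GSys Γ m Z φ) {p : Y → Prop} (hp : ∀ᵐ x ∂m, p x) :
    ∃ G : Set Y, MeasurableSet G ∧ (∀ᵐ x ∂m, x ∈ G) ∧ (∀ (n : ℤ) x, φ n x ∈ G ↔ x ∈ G) ∧
      (∀ (g : Γ) x, g • x ∈ G ↔ x ∈ G) ∧ ∀ x ∈ G, p x := by
  obtain ⟨G, h1, h2, h3, h4⟩ := MET.exists_inv_set (X := Iv Γ Y) (τ := fun n : ℤ => φ n) h.act.act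
    h.mpI ((ae_muI h.fund).2 hp)
  exact ⟨G, h1.1, (ae_muI h.fund).1 h2, h3, h1.2, h4⟩

theorem GSys.ae_den (h : GSys Γ m Z φ) {f : Y → ℝ} (hf : AEMeasurable f m)
    (hi : ∀ g : Γ, ∀ᵐ x ∂m, f (g • x) = f x) :
    ∀ᵐ x ∂m, (Den fun i => f (φ i x)) ∧ Den fun i => f (φ (-i) x) :=
  haveI := h.finite
  (ae_muI h.fund).1 (MET.ae_den (X := Iv Γ Y) h.act h.mpI (aemeasurable_iv h.fund hf hi))

theorem GSys.ae_temp (h : GSys Γ m Z φ) {f : Y → ℝ} (hf : AEMeasurable f m)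
    (hi : ∀ g : Γ, ∀ᵐ x ∂m, f (g • x) = f x) {C : ℝ}
    (hC : (∀ᵐ x ∂m, f x - C ≤ f (φ 1 x)) ∨ ∀ᵐ x ∂m, f (φ 1 x) ≤ f x + C) :
    ∀ᵐ x ∂m, ∀ ε : ℝ, 0 < ε → ∃ K : ℝ, ∀ n : ℤ, |f (φ n x)| ≤ K + ε * |(n : ℝ)| :=
  haveI := h.finite
  (ae_muI h.fund).1 (MET.ae_temp (X := Iv Γ Y) h.act h.mpI (aemeasurable_iv h.fund hf hi)
    (hC.imp (ae_muI h.fund).2 (ae_muI h.fund).2))

theorem GSys.ae_rec (h : GSys Γ m Z φ) {f : Y → ℝ} (hf : AEMeasurable f m)
    (hi : ∀ g : Γ, ∀ᵐ x ∂m, f (g • x) = f x) : ∀ᵐ x ∂m, Rec φ f x :=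
  haveI := h.finite
  (ae_muI h.fund).1 (MET.ae_rec (X := Iv Γ Y) h.act h.mpI (aemeasurable_iv h.fund hf hi))

/-- ergodicity: measurable functions which are invariant under the group and the flow are
constant -/
def GErg (Γ : Type*) [Group Γ] [MulAction Γ Y] (m : Measure Y) (φ : ℝ → Y → Y) : Prop :=
  ∀ f : Y → ℝ, AEMeasurable f m → (∀ g : Γ, ∀ᵐ x ∂m, f (g • x) = f x) →
    (∀ t, ∀ᵐ x ∂m, f (φ t x) = f x) → ∃ c, ∀ᵐ x ∂m, f x = c

lemma GSys.ferg (h : GSys Γ m Z φ) (he : GErg Γ m φ) : FErg (X := Iv Γ Y) φ (muI Γ m Z) := by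
  intro f hf hi
  obtain ⟨c, hc⟩ := he f (aemeasurable_of_iv h.fund hf) (fun g => by
    filter_upwards [(ae_muI h.fund).1 hf.ae_eq_mk,
      ae_smul_all (Γ := Γ) ((ae_muI h.fund).1 hf.ae_eq_mk)] with x h1 h2
    exact (h2 g).trans ((inv_of_iv (Y := Y) hf.measurable_mk g x).trans h1.symm))
    fun t => Eventually.of_forall (hi t)
  exact ⟨c, (ae_muI h.fund).2 hc⟩

variable {E : Type*} [NormedAddCommGroup E] [NormedSpace ℝ E] {Φ : ℝ → Y → E →L[ℝ] E} {L : ℝ}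

omit [Countable Γ] [MeasurableConstSMul Γ Y] [SMulInvariantMeasure Γ Y m] in
lemma GSys.osel_smul (h : GSys Γ m Z φ) (hi : ∀ t (g : Γ) x, Φ t (g • x) = Φ t x) (g : Γ) (x : Y)
    (π : ℝ → E →L[ℝ] E) : Osel φ Φ (g • x) π ↔ Osel φ Φ x π := by
  have e : ∀ q l, FBd φ Φ (g • x) q l ↔ FBd φ Φ x q l := fun q l => by
    simp only [FBd, h.comm, hi]
  exact ⟨fun o => ⟨o.fin, hi 0 g x ▸ o.sum, hi 0 g x ▸ o.left, hi 0 g x ▸ o.right,
    fun a => (e _ _).1 (o.bd a)⟩, fun o => ⟨o.fin, (hi 0 g x).symm ▸ o.sum, (hi 0 g x).symm ▸ o.left,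
    (hi 0 g x).symm ▸ o.right, fun a => (e _ _).2 (o.bd a)⟩⟩

omit [Countable Γ] [MeasurableConstSMul Γ Y] [SMulInvariantMeasure Γ Y m] in
lemma GSys.reg_smul (h : GSys Γ m Z φ) (hi : ∀ t (g : Γ) x, Φ t (g • x) = Φ t x) (g : Γ) (x : Y) :
    Reg φ Φ (g • x) ↔ Reg φ Φ x := exists_congr (h.osel_smul hi g x)

omit [Countable Γ] [MeasurableConstSMul Γ Y] [SMulInvariantMeasure Γ Y m] in
lemma GSys.prj_smul (h : GSys Γ m Z φ) (hc : FCoc φ Φ L) (hi : ∀ t (g : Γ) x, Φ t (g • x) = Φ t x)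
    (g : Γ) (x : Y) : prj φ Φ (g • x) = prj φ Φ x := by
  by_cases hx : Reg φ Φ x
  · exact ((h.osel_smul hi g x _).2 hx.osel).prj_eq h.act hc
  · rw [prj_of_not hx, prj_of_not (mt (h.reg_smul hi g x).1 hx)]

omit [Countable Γ] [MeasurableConstSMul Γ Y] [SMulInvariantMeasure Γ Y m] in
lemma GSys.del_smul (h : GSys Γ m Z φ) (hc : FCoc φ Φ L) (hi : ∀ t (g : Γ) x, Φ t (g • x) = Φ t x)
    (g : Γ) (x : Y) : del φ Φ (g • x) = del φ Φ x := by
  rw [del, del, h.prj_smul hc hi]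

variable [FiniteDimensional ℝ E]

theorem GSys.met_flow (h : GSys Γ m Z φ) (hc : FCoc φ Φ L) (hm : ∀ n : ℤ, Measurable (Φ n))
    (hi : ∀ t (g : Γ) x, Φ t (g • x) = Φ t x) :
    ∃ (d : ℕ) (P : Fin d → Y → E →L[ℝ] E) (lam : Fin d → Y → ℝ),
      (∀ i, Measurable (P i)) ∧ (∀ i, Measurable (lam i)) ∧ (∀ i (g : Γ) x, P i (g • x) = P i x) ∧
      (∀ i (g : Γ) x, lam i (g • x) = lam i x) ∧
      ∀ᵐ x ∂m, Reg φ Φ x ∧ (∀ a, prj φ Φ x a = ∑ i, if lam i x = a then P i x else 0) ∧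
        del φ Φ x = ∑ i, lam i x • P i x ∧ (∀ i, P i x ≠ 0 → prj φ Φ x (lam i x) = P i x) ∧
        ∀ i j, i < j → P j x ≠ 0 → P i x ≠ 0 ∧ lam i x < lam j x := by
  haveI := h.finite
  obtain ⟨d, P, lam, h1, h2, h3⟩ := MET.met_flow (X := Iv Γ Y) h.act h.mpI hc
    fun n => measurable_iv (hm n) (hi n)
  exact ⟨d, P, lam, fun i => measurable_of_iv (h1 i), fun i => measurable_of_iv (h2 i),
    fun i => inv_of_iv (h1 i), fun i => inv_of_iv (h2 i), (ae_muI h.fund).1 h3⟩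

theorem GSys.ae_reg (h : GSys Γ m Z φ) (hc : FCoc φ Φ L) (hm : ∀ n : ℤ, Measurable (Φ n))
    (hi : ∀ t (g : Γ) x, Φ t (g • x) = Φ t x) : ∀ᵐ x ∂m, Reg φ Φ x :=
  haveI := h.finite
  (ae_muI h.fund).1 (MET.ae_reg (X := Iv Γ Y) h.act h.mpI hc fun n => measurable_iv (hm n) (hi n))

theorem GSys.aemeasurable_del (h : GSys Γ m Z φ) (hc : FCoc φ Φ L) (hm : ∀ n : ℤ, Measurable (Φ n))
    (hi : ∀ t (g : Γ) x, Φ t (g • x) = Φ t x) : AEMeasurable (del φ Φ) m :=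
  haveI := h.finite
  aemeasurable_of_iv h.fund (MET.aemeasurable_del (X := Iv Γ Y) h.act h.mpI hc
    fun n => measurable_iv (hm n) (hi n))

theorem GSys.aemeasurable_prj (h : GSys Γ m Z φ) (hc : FCoc φ Φ L) (hm : ∀ n : ℤ, Measurable (Φ n))
    (hi : ∀ t (g : Γ) x, Φ t (g • x) = Φ t x) (a : ℝ) : AEMeasurable (fun x => prj φ Φ x a) m :=
  haveI := h.finite
  aemeasurable_of_iv h.fund (MET.aemeasurable_prj (X := Iv Γ Y) h.act h.mpI hc
    (fun n => measurable_iv (hm n) (hi n)) (a := fun _ => a) measurable_const)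

theorem GSys.pesin (h : GSys Γ m Z φ) (hc : FCoc φ Φ L) (hm : ∀ n : ℤ, Measurable (Φ n))
    (hi : ∀ t (g : Γ) x, Φ t (g • x) = Φ t x) {ε : ℝ} (hε : 0 < ε) :
    ∃ Λ : ℕ → Set Y, (∀ k, MeasurableSet (Λ k)) ∧ (∀ k (g : Γ) x, g • x ∈ Λ k ↔ x ∈ Λ k) ∧
      Monotone Λ ∧ (∀ᵐ x ∂m, ∃ k, x ∈ Λ k) ∧
      ∀ k, ∀ x ∈ Λ k, Reg φ Φ x ∧ ∀ a s t, ‖Φ t x * prj φ Φ x a * Φ (-s) (φ s x)‖ ≤
        k * Real.exp ((t - s) * a + ε * (|s| + |t|)) := by
  haveI := h.finite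
  obtain ⟨Λ, h1, h2, h3, h4⟩ := MET.pesin (X := Iv Γ Y) h.act h.mpI hc
    (fun n => measurable_iv (hm n) (hi n)) hε
  exact ⟨Λ, fun k => (h1 k).1, fun k => (h1 k).2, h2, (ae_muI h.fund).1 h3, h4⟩

theorem GSys.mlt_const (h : GSys Γ m Z φ) (hc : FCoc φ Φ L) (hm : ∀ n : ℤ, Measurable (Φ n))
    (hi : ∀ t (g : Γ) x, Φ t (g • x) = Φ t x) (he : GErg Γ m φ) :
    ∃ k : ℝ → ℕ, (Function.support k).Finite ∧ ∀ᵐ x ∂m, mlt φ Φ x = k := by
  haveI := h.finite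
  obtain ⟨k, h1, h2⟩ := MET.mlt_const (X := Iv Γ Y) h.act h.mpI hc
    (fun n => measurable_iv (hm n) (hi n)) (h.ferg he)
  exact ⟨k, h1, (ae_muI h.fund).1 h2⟩

lemma MSub.iv (h : IsFundamentalDomain Γ Z m) {W : Y → Submodule ℝ E} (hW : MSub m W)
    (hi : ∀ g : Γ, ∀ᵐ x ∂m, W (g • x) = W x) : MSub (X := Iv Γ Y) (muI Γ m Z) W := by
  obtain ⟨A, hA, h1⟩ := hW
  let e := toEuclidean (E := E)
  have h2 : Measurable fun x => e.toContinuousLinearMap ∘L hA.mk A x :=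
    (continuous_const.clm_comp continuous_id).measurable.comp hA.measurable_mk
  have h3 : ∀ᵐ x ∂m, (e.toContinuousLinearMap ∘L hA.mk A x).range =
      (W x).map (e.toContinuousLinearMap : E →ₗ[ℝ] _) := by
    filter_upwards [h1, hA.ae_eq_mk] with x h4 h5
    rw [← h5, ← h4]
    exact LinearMap.range_comp _ _
  have h4 := aemeasurable_iv (Γ := Γ) h (meas_proj_range h2).aemeasurable fun g => by
    filter_upwards [h3, ae_smul_all (Γ := Γ) h3, hi g] with x h5 h6 h7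
    simp only [h5, h6 g, h7]
  refine (msub_range (X := Iv Γ Y) (aem_comp (aemeasurable_const
    (b := e.symm.toContinuousLinearMap)) h4)).congr ((ae_muI h).2 (h3.mono fun x hx => ?_))
  refine (LinearMap.range_comp _ _).trans ?_
  rw [Submodule.range_starProjection, hx, ← Submodule.map_comp]
  simp

/-- equivariant measurable fields of subspaces are invariant under the grading -/
theorem GSys.prj_mem (h : GSys Γ m Z φ) (hc : FCoc φ Φ L) (hm : ∀ n : ℤ, Measurable (Φ n))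
    (hi : ∀ t (g : Γ) x, Φ t (g • x) = Φ t x) {W : Y → Submodule ℝ E} (hW : MSub m W)
    (hg : ∀ g : Γ, ∀ᵐ x ∂m, W (g • x) = W x) (h0 : ∀ᵐ x ∂m, ∀ v ∈ W x, Φ 0 x v = v)
    (hn : ∀ n : ℤ, ∀ᵐ x ∂m, ∀ v ∈ W x, Φ n x v ∈ W (φ n x)) :
    ∀ᵐ x ∂m, (∀ a, ∀ v ∈ W x, prj φ Φ x a v ∈ W x) ∧ ∀ v ∈ W x, del φ Φ x v ∈ W x :=
  haveI := h.finite
  (ae_muI h.fund).1 (MSub.prj_mem (X := Iv Γ Y) h.act h.mpI hc
    (fun n => measurable_iv (hm n) (hi n)) (hW.iv h.fund hg) ((ae_muI h.fund).2 h0)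
    fun n => (ae_muI h.fund).2 (hn n))

end Vale.Agent.P207Z.MET
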