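import Vale.Agent.P207Z.MET.Erg

/-!
# Sequences which are bounded on sets of density close to one; tempering; measurable subspaces
-/

set_option linter.all false

open MeasureTheory Filter Topology Set

namespace Vale.Agent.P207Z.MET

/-- the sequence is bounded outside of sets of small upper density -/
def Den (u : ℕ → ℝ) : Prop :=
  ∀ ε : ℝ, 0 < ε → ∃ k : ℝ, ∀ j : ℕ, (((Finset.range j).filter fun i => k < u i).card : ℝ) ≤ ε * j

variable {u v : ℕ → ℝ}

lemma Den.mono (h : Den u) (hv : ∀ i, v i ≤ u i) : Den v := fun ε hε => by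
  obtain ⟨k, hk⟩ := h ε hε
  refine ⟨k, fun j => le_trans (Nat.cast_le.2 (Finset.card_le_card fun i hi => ?_)) (hk j)⟩
  rw [Finset.mem_filter] at hi ⊢
  exact ⟨hi.1, hi.2.trans_le (hv i)⟩

lemma den_const (c : ℝ) : Den fun _ => c := fun ε hε => ⟨c, fun j => by
  simp only [lt_irrefl, Finset.filter_false, Finset.card_empty, Nat.cast_zero]
  positivity⟩

lemma Den.max (h : Den u) (h' : Den v) : Den fun i => max (u i) (v i) := fun ε hε => by
  obtain ⟨k, hk⟩ := h (ε / 2) (half_pos hε)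
  obtain ⟨l, hl⟩ := h' (ε / 2) (half_pos hε)
  refine ⟨Max.max k l, fun j => ?_⟩
  have h1 : ((Finset.range j).filter fun i => Max.max k l < Max.max (u i) (v i)) ⊆
      ((Finset.range j).filter fun i => k < u i) ∪ (Finset.range j).filter fun i => l < v i := by
    intro i hi
    rw [Finset.mem_filter] at hi
    rw [Finset.mem_union, Finset.mem_filter, Finset.mem_filter]
    rcases lt_max_iff.1 hi.2 with h2 | h2
    · exact Or.inl ⟨hi.1, (le_max_left _ _).trans_lt h2⟩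
    · exact Or.inr ⟨hi.1, (le_max_right _ _).trans_lt h2⟩
  have h2 := (Finset.card_le_card h1).trans (Finset.card_union_le _ _)
  have h3 : (((Finset.range j).filter fun i => Max.max k l < Max.max (u i) (v i)).card : ℝ) ≤ _ :=
    Nat.cast_le.2 h2
  push_cast at h3
  linarith [hk j, hl j]

lemma Den.add (h : Den u) (h' : Den v) : Den fun i => u i + v i := fun ε hε => by
  obtain ⟨k, hk⟩ := h.max h' ε hε
  refine ⟨k + k, fun j => le_trans (Nat.cast_le.2 (Finset.card_le_card fun i hi => ?_)) (hk j)⟩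
  rw [Finset.mem_filter] at hi ⊢
  refine ⟨hi.1, lt_of_not_ge fun h1 => ?_⟩
  linarith [hi.2, (max_le_iff.1 h1).1, (max_le_iff.1 h1).2]

lemma Den.sum {ι : Type*} (S : Finset ι) {u : ι → ℕ → ℝ} (h : ∀ l ∈ S, Den (u l)) :
    Den fun i => ∑ l ∈ S, u l i := by
  classical
  induction S using Finset.induction_on with
  | empty => simpa using den_const 0
  | insert a S ha ih =>
    simp only [Finset.sum_insert ha]
    exact (h a (Finset.mem_insert_self _ _)).add (ih fun l hl => h l (Finset.mem_insert_of_mem hl))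

/-- every long window contains a good time -/
lemma Den.window (h : Den u) {ε : ℝ} (hε : 0 < ε) :
    ∃ k : ℝ, ∀ a b : ℕ, ε * b < b - a → ∃ i, a ≤ i ∧ i < b ∧ u i ≤ k := by
  obtain ⟨k, hk⟩ := h ε hε
  refine ⟨k, fun a b hab => ?_⟩
  by_contra hc
  push Not at hc
  have h1 : Finset.Ico a b ⊆ (Finset.range b).filter fun i => k < u i := fun i hi => by
    rw [Finset.mem_Ico] at hi
    exact Finset.mem_filter.2 ⟨Finset.mem_range.2 hi.2, hc i hi.1 hi.2⟩
  have h2 := Finset.card_le_card h1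
  have h3 : a ≤ b := by
    have : (0 : ℝ) ≤ ε * b := by positivity
    exact_mod_cast (by linarith : (a : ℝ) ≤ b)
  rw [Nat.card_Ico] at h2
  have h4 : ((b - a : ℕ) : ℝ) ≤ _ := Nat.cast_le.2 h2
  rw [Nat.cast_sub h3] at h4
  linarith [hk b]

/-- later returns -/
lemma Den.later (h : Den u) {θ : ℝ} (hθ : 0 < θ) :
    ∃ k : ℝ, ∀ n : ℕ, ∃ i : ℕ, n ≤ i ∧ (i : ℝ) ≤ (1 + θ) * n ∧ u i ≤ k := by
  obtain ⟨k, hk⟩ := h.window (ε := θ / (2 + θ)) (by positivity)
  refine ⟨k, fun n => ?_⟩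
  have hn : (0 : ℝ) ≤ n := Nat.cast_nonneg n
  have h1 := Nat.lt_floor_add_one (θ * n)
  have h2 := Nat.floor_le (show 0 ≤ θ * n by positivity)
  obtain ⟨i, a, b, c⟩ := hk n (n + ⌊θ * n⌋₊ + 1) (by
    push_cast
    rw [div_mul_eq_mul_div, div_lt_iff₀ (by positivity)]
    nlinarith)
  refine ⟨i, a, ?_, c⟩
  have : (i : ℝ) ≤ n + ⌊θ * n⌋₊ := by exact_mod_cast Nat.lt_succ_iff.1 b
  linarith

/-- earlier returns -/
lemma Den.earlier (h : Den u) {θ : ℝ} (hθ : 0 < θ) :
    ∃ k : ℝ, ∀ n : ℕ, ∃ i : ℕ, i ≤ n ∧ (n : ℝ) ≤ i + θ * (n + 1) ∧ u i ≤ k := by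
  obtain ⟨k, hk⟩ := h.window (ε := min θ (1 / 2)) (lt_min hθ (by norm_num))
  refine ⟨k, fun n => ?_⟩
  have hn : (0 : ℝ) ≤ n := Nat.cast_nonneg n
  have h0 : 0 ≤ min θ (1 / 2) * (n + 1) := mul_nonneg (le_min hθ.le (by norm_num)) (by linarith)
  have h1 := Nat.lt_floor_add_one (min θ (1 / 2) * (n + 1))
  have h2 := Nat.floor_le h0
  have h3 : min θ (1 / 2) * (n + 1) ≤ 1 / 2 * (n + 1) :=
    mul_le_mul_of_nonneg_right (min_le_right _ _) (by linarith)
  have h4 : min θ (1 / 2) * (n + 1) ≤ θ * (n + 1) :=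
    mul_le_mul_of_nonneg_right (min_le_left _ _) (by linarith)
  have h5 : ⌊min θ (1 / 2) * (n + 1)⌋₊ ≤ n := by
    have : (⌊min θ (1 / 2) * (n + 1)⌋₊ : ℝ) < n + 1 := by linarith
    exact Nat.lt_succ_iff.1 (by exact_mod_cast this)
  obtain ⟨i, a, b, c⟩ := hk (n - ⌊min θ (1 / 2) * (n + 1)⌋₊) (n + 1) (by
    rw [Nat.cast_sub h5]
    push_cast
    linarith)
  refine ⟨i, Nat.lt_succ_iff.1 b, ?_, c⟩
  have h6 : ((n - ⌊min θ (1 / 2) * (n + 1)⌋₊ : ℕ) : ℝ) ≤ i := Nat.cast_le.2 a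
  rw [Nat.cast_sub h5] at h6
  linarith

lemma Den.frequently (h : Den u) : ∃ k : ℝ, ∀ n : ℕ, ∃ i : ℕ, n ≤ i ∧ u i ≤ k := by
  obtain ⟨k, hk⟩ := h.later one_pos
  exact ⟨k, fun n => (hk n).imp fun i hi => ⟨hi.1, hi.2.2⟩⟩

lemma step_le {C : ℝ} (hu : ∀ i, u i - C ≤ u (i + 1)) (i k : ℕ) : u i - k * C ≤ u (i + k) := by
  induction k with
  | zero => simp
  | succ k ih =>
    have := hu (i + k)
    rw [← add_assoc]
    push_cast
    linarith

/-- tempering from a one-sided bound -/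
lemma Den.temp (h : Den fun i => |u i|) {C : ℝ} (hu : ∀ i, u i - C ≤ u (i + 1)) {ε : ℝ}
    (hε : 0 < ε) : ∃ K : ℝ, ∀ n : ℕ, |u n| ≤ K + ε * n := by
  set D := |C| + 1 with hD
  have hD0 : 0 < D := by positivity
  have hu' : ∀ i, u i - D ≤ u (i + 1) := fun i => by linarith [hu i, le_abs_self C]
  obtain ⟨k, hk⟩ := h.later (div_pos hε hD0)
  obtain ⟨l, hl⟩ := h.earlier (div_pos hε hD0)
  have e : D * (ε / D) = ε := mul_div_cancel₀ _ hD0.ne'
  refine ⟨Max.max k l + ε, fun n => abs_le.2 ⟨?_, ?_⟩⟩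
  · obtain ⟨i, a, b, c⟩ := hl n
    obtain ⟨j, rfl⟩ := Nat.exists_eq_add_of_le a
    have h1 := step_le hu' i j
    have h2 : (j : ℝ) ≤ ε / D * ((i + j : ℕ) + 1) := by push_cast at b ⊢; linarith
    have h3 := mul_le_mul_of_nonneg_left h2 hD0.le
    rw [← mul_assoc, e] at h3
    linarith [neg_abs_le (u i), le_max_right k l]
  · obtain ⟨i, a, b, c⟩ := hk n
    obtain ⟨j, rfl⟩ := Nat.exists_eq_add_of_le a
    have h1 := step_le hu' n j
    have h2 : (j : ℝ) ≤ ε / D * n := by push_cast at b; linarith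
    have h3 := mul_le_mul_of_nonneg_left h2 hD0.le
    rw [← mul_assoc, e] at h3
    linarith [le_abs_self (u (n + j)), le_max_left k l]

lemma Den.temp' (h : Den fun i => |u i|) {C : ℝ} (hu : ∀ i, u (i + 1) ≤ u i + C) {ε : ℝ}
    (hε : 0 < ε) : ∃ K : ℝ, ∀ n : ℕ, |u n| ≤ K + ε * n := by
  obtain ⟨K, hK⟩ := Den.temp (u := fun i => -u i) (C := C) (by simpa only [abs_neg] using h)
    (fun i => by linarith [hu i]) hε
  exact ⟨K, fun n => by simpa only [abs_neg] using hK n⟩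

variable {X : Type*} [MeasurableSpace X] {μ : Measure X}

theorem ae_den_iter [IsFiniteMeasure μ] {T : X → X} (hT : MeasurePreserving T μ μ) {g : X → ℝ}
    (hg : AEMeasurable g μ) : ∀ᵐ x ∂μ, Den fun i => g (T^[i] x) := by
  classical
  have hG : ∀ k : ℕ, MeasurableSet {y | hg.mk g y ≤ k} := fun k =>
    measurableSet_le hg.measurable_mk measurable_const
  have hm : Monotone fun k : ℕ => {y | hg.mk g y ≤ k} := fun a b hab y hy =>
    le_trans (b := (a : ℝ)) hy (Nat.cast_le.2 hab)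
  have hae : ∀ᵐ x ∂μ, ∃ k : ℕ, x ∈ {y | hg.mk g y ≤ k} :=
    Eventually.of_forall fun x => exists_nat_ge (hg.mk g x)
  filter_upwards [ae_all_iff.2 fun n : ℕ => dens hT hG hm hae (δ := 1 / ((n : ℝ) + 1))
    Nat.one_div_pos_of_nat, ae_all_iff.2 fun i : ℕ =>
    (hT.iterate i).quasiMeasurePreserving.ae hg.ae_eq_mk] with x hx he ε hε
  obtain ⟨n, hn⟩ := exists_nat_one_div_lt hε
  obtain ⟨k, hk⟩ := hx n
  refine ⟨k, fun j => le_trans (le_of_eq ?_) ((hk j).trans
    (mul_le_mul_of_nonneg_right hn.le (Nat.cast_nonneg j)))⟩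
  rw [cnt, Finset.card_filter, Nat.cast_sum]
  refine Finset.sum_congr rfl fun i _ => ?_
  simp [he i, indicator_apply]

/-- the density statement along the forward and the backward orbit of a flow -/
theorem ae_den [IsFiniteMeasure μ] {φ : ℝ → X → X} (hφ : FAct φ)
    (hp : ∀ n : ℤ, MeasurePreserving (φ n) μ μ) {g : X → ℝ} (hg : AEMeasurable g μ) :
    ∀ᵐ x ∂μ, (Den fun i => g (φ i x)) ∧ Den fun i => g (φ (-i) x) := by
  filter_upwards [ae_den_iter (hp 1) hg, ae_den_iter (hp (-1)) hg] with x h1 h2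
  have e1 := fun i => hφ.act.iter 1 i x
  have e2 := fun i => hφ.act.iter (-1) i x
  simp only [mul_one, mul_neg, Int.cast_neg, Int.cast_natCast] at e1 e2
  simp only [Int.cast_neg] at h2
  simp only [e1] at h1
  simp only [e2] at h2
  exact ⟨h1, h2⟩

/-- tempering along the whole orbit -/
theorem ae_temp [IsFiniteMeasure μ] {φ : ℝ → X → X} (hφ : FAct φ)
    (hp : ∀ n : ℤ, MeasurePreserving (φ n) μ μ) {g : X → ℝ} (hg : AEMeasurable g μ) {C : ℝ}
    (h : (∀ᵐ x ∂μ, g x - C ≤ g (φ 1 x)) ∨ ∀ᵐ x ∂μ, g (φ 1 x) ≤ g x + C) :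
    ∀ᵐ x ∂μ, ∀ ε : ℝ, 0 < ε → ∃ K : ℝ, ∀ n : ℤ, |g (φ n x)| ≤ K + ε * |(n : ℝ)| := by
  have key : ∀ x, (∀ ε : ℝ, 0 < ε → ∃ K : ℝ, ∀ n : ℕ, |g (φ n x)| ≤ K + ε * n) →
      (∀ ε : ℝ, 0 < ε → ∃ K : ℝ, ∀ n : ℕ, |g (φ (-n) x)| ≤ K + ε * n) →
      ∀ ε : ℝ, 0 < ε → ∃ K : ℝ, ∀ n : ℤ, |g (φ n x)| ≤ K + ε * |(n : ℝ)| := fun x h1 h2 ε hε => by
    obtain ⟨K, hK⟩ := h1 ε hε
    obtain ⟨K', hK'⟩ := h2 ε hε
    refine ⟨Max.max K K', fun n => ?_⟩
    obtain ⟨m, rfl | rfl⟩ := Int.eq_nat_or_neg n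
    · rw [Int.cast_natCast, Nat.abs_cast]
      linarith [hK m, le_max_left K K']
    · rw [Int.cast_neg, Int.cast_natCast, abs_neg, Nat.abs_cast]
      linarith [hK' m, le_max_right K K']
  have e1 : ∀ (i : ℕ) x, φ 1 (φ ((i : ℤ) : ℝ) x) = φ ((i + 1 : ℕ) : ℝ) x := fun i x =>
    (hφ.add' (by push_cast; ring) x).symm
  have e2 : ∀ (i : ℕ) x, φ 1 (φ ((-((i + 1 : ℕ) : ℤ) : ℤ) : ℝ) x) = φ (-(i : ℝ)) x := fun i x =>
    (hφ.add' (by push_cast; ring) x).symm
  rcases h with h | h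
  · filter_upwards [ae_den hφ hp hg.abs, ae_orbit (τ := fun n : ℤ => φ n) hp h] with x h1 h2
    refine key x (fun ε hε => Den.temp (C := C) h1.1 (fun i => ?_) hε)
      fun ε hε => Den.temp' (C := C) h1.2 (fun i => ?_) hε
    · have := h2 i
      rwa [e1, Int.cast_natCast] at this
    · have := h2 (-((i + 1 : ℕ) : ℤ))
      rw [e2, Int.cast_neg, Int.cast_natCast] at this
      linarith
  · filter_upwards [ae_den hφ hp hg.abs, ae_orbit (τ := fun n : ℤ => φ n) hp h] with x h1 h2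
    refine key x (fun ε hε => Den.temp' (C := C) h1.1 (fun i => ?_) hε)
      fun ε hε => Den.temp (C := C) h1.2 (fun i => ?_) hε
    · have := h2 i
      rwa [e1, Int.cast_natCast] at this
    · have := h2 (-((i + 1 : ℕ) : ℤ))
      rw [e2, Int.cast_neg, Int.cast_natCast] at this
      linarith

/-- compact quantifiers over functions which are continuous in the second variable -/
lemma meas_car {Z : Type*} [PseudoMetricSpace Z] {K : Set Z} (hK : IsCompact K) {f : ℕ → X → Z → ℝ}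
    (hc : ∀ j x, Continuous (f j x)) (hm : ∀ j z, Measurable fun x => f j x z) :
    MeasurableSet {x | ∃ z ∈ K, ∀ j, f j x z ≤ 0} := by
  obtain ⟨D, hD1, hD2, hD3⟩ := hK.isSeparable.exists_countable_dense_subset
  have e : {x | ∃ z ∈ K, ∀ j, f j x z ≤ 0} =
      ⋂ N : ℕ, ⋃ z ∈ D, ⋂ j ∈ Iic N, {x | f j x z < 1 / ((N : ℝ) + 1)} := by
    ext x
    simp only [mem_setOf_eq, mem_iInter, mem_iUnion, exists_prop]
    constructor
    · rintro ⟨z, hz, h⟩ N
      have ho : IsOpen (⋂ j ∈ Iic N, {z | f j x z < 1 / ((N : ℝ) + 1)}) :=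
        (finite_Iic N).isOpen_biInter fun j _ => isOpen_lt (hc j x) continuous_const
      obtain ⟨w, h1, h2⟩ := mem_closure_iff.1 (hD3 hz) _ ho
        (mem_iInter₂.2 fun j _ => (h j).trans_lt Nat.one_div_pos_of_nat)
      exact ⟨w, h2, fun j hj => mem_iInter₂.1 h1 j hj⟩
    · intro h
      let W : ℕ → Set Z := fun N => K ∩ ⋂ j ∈ Iic N, {z | f j x z ≤ 1 / ((N : ℝ) + 1)}
      have hW : ∀ N, IsCompact (W N) := fun N => hK.inter_right
        (isClosed_biInter fun j _ => isClosed_le (hc j x) continuous_const)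
      obtain ⟨z, hz⟩ := hK.inter_iInter_nonempty
        (fun N : ℕ => ⋂ j ∈ Iic N, {z | f j x z ≤ 1 / ((N : ℝ) + 1)})
        (fun N => isClosed_biInter fun j _ => isClosed_le (hc j x) continuous_const) fun S => by
          obtain ⟨w, h1, h2⟩ := h (S.sup id)
          refine ⟨w, hD1 h1, mem_iInter₂.2 fun N hN => mem_iInter₂.2 fun j hj => ?_⟩
          have h3 : N ≤ S.sup id := Finset.le_sup (f := id) hN
          exact (h2 j (le_trans hj h3)).le.trans (Nat.one_div_le_one_div h3)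
      refine ⟨z, hz.1, fun j => ge_of_tendsto (tendsto_one_div_add_atTop_nhds_zero_nat (𝕜 := ℝ)) ?_⟩
      filter_upwards [eventually_ge_atTop j] with N hN
      exact mem_iInter₂.1 (mem_iInter.1 hz.2 N) j hN
  rw [e]
  exact MeasurableSet.iInter fun N => MeasurableSet.biUnion hD2 fun z _ =>
    MeasurableSet.biInter (to_countable _) fun j _ => measurableSet_lt (hm j z) measurable_const

variable {E : Type*} [NormedAddCommGroup E] [NormedSpace ℝ E] [FiniteDimensional ℝ E]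

lemma seminorm_cont (p : Seminorm ℝ E) : Continuous p := p.convexOn.locallyLipschitz.continuous

/-- the vectors on which a sequence of seminorms is bounded -/
def bddSub (p : ℕ → Seminorm ℝ E) : Submodule ℝ E where
  carrier := {l | ∃ C : ℝ, ∀ j, p j l ≤ C}
  zero_mem' := ⟨0, fun j => (map_zero _).le⟩
  add_mem' := by
    rintro a b ⟨C, hC⟩ ⟨D, hD⟩
    exact ⟨C + D, fun j => (map_add_le_add _ _ _).trans (add_le_add (hC j) (hD j))⟩
  smul_mem' := by
    rintro t a ⟨C, hC⟩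
    refine ⟨|t| * C, fun j => ?_⟩
    rw [map_smul_eq_mul]
    exact mul_le_mul_of_nonneg_left (hC j) (abs_nonneg t)

lemma exists_proj_aux {H : Type*} [NormedAddCommGroup H] [InnerProductSpace ℝ H]
    [FiniteDimensional ℝ H] (e : E ≃L[ℝ] H) {W : X → Submodule ℝ E}
    (h : ∀ u r, MeasurableSet {x | ∃ w ∈ Metric.closedBall u r, e.symm w ∈ W x}) :
    ∃ (p : X → E →L[ℝ] E) (K : ℝ), 0 ≤ K ∧ Measurable p ∧ (∀ x, ‖p x‖ ≤ K) ∧
      (∀ x v, p x v ∈ W x) ∧ ∀ x, ∀ v ∈ W x, p x v = v := by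
  let c := e.conjContinuousAlgEquiv
  obtain ⟨K, hK, h1⟩ := conj_norm c.symm
  let W' : X → Submodule ℝ H := fun x => (W x).comap (e.symm : H →ₗ[ℝ] E)
  have h2 : Measurable fun x => (W' x).starProjection := meas_proj fun u r => by
    have : {x | ∃ w ∈ W' x, ‖u - w‖ ≤ r} = {x | ∃ w ∈ Metric.closedBall u r, e.symm w ∈ W x} := by
      ext x
      simp only [mem_setOf_eq, mem_closedBall_iff_norm']
      exact exists_congr fun w => and_comm
    rw [this]
    exact h u r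
  refine ⟨fun x => c.symm (W' x).starProjection, K, hK, c.symm.continuous.measurable.comp h2,
    fun x => (h1 _).trans (mul_le_of_le_one_right hK (Submodule.starProjection_norm_le _)),
    fun x v => (W' x).starProjection_apply_mem (e v), fun x v hv => ?_⟩
  change e.symm ((W' x).starProjection (e v)) = v
  have h3 : e v ∈ W' x := by
    change e.symm (e v) ∈ W x
    rwa [e.symm_apply_apply]
  rw [Submodule.starProjection_eq_self_iff.2 h3, e.symm_apply_apply]

/-- the subspace where countably many measurable seminorms are bounded is measurable, with a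
measurable constant -/
theorem msub_bdd {p : ℕ → X → Seminorm ℝ E} (hp : ∀ j l, Measurable fun x => p j x l) :
    ∃ (q : X → E →L[ℝ] E) (K : ℝ) (C : X → ℝ), Measurable q ∧ Measurable C ∧ (∀ x, ‖q x‖ ≤ K) ∧
      (∀ x v, q x v ∈ bddSub fun j => p j x) ∧ (∀ x, ∀ v ∈ bddSub fun j => p j x, q x v = v) ∧
      ∀ x, 0 ≤ C x ∧ ∀ v ∈ bddSub fun j => p j x, ∀ j, p j x v ≤ C x * ‖v‖ := by
  obtain ⟨q, K, -, q1, q2, q3, q4⟩ := exists_proj_aux (toEuclidean (E := E))
    (W := fun x => bddSub fun j => p j x) fun u r => by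
      have : {x | ∃ w ∈ Metric.closedBall u r, (toEuclidean (E := E)).symm w ∈
          bddSub fun j => p j x} = ⋃ C : ℕ, {x | ∃ w ∈ Metric.closedBall u r,
            ∀ j, p j x ((toEuclidean (E := E)).symm w) - C ≤ 0} := by
        ext x
        simp only [mem_setOf_eq, mem_iUnion, sub_nonpos]
        constructor
        · rintro ⟨w, hw, C, hC⟩
          obtain ⟨N, hN⟩ := exists_nat_ge C
          exact ⟨N, w, hw, fun j => (hC j).trans hN⟩
        · rintro ⟨C, w, hw, hC⟩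
          exact ⟨w, hw, C, hC⟩
      rw [this]
      exact MeasurableSet.iUnion fun C => meas_car (isCompact_closedBall _ _)
        (fun j x => ((seminorm_cont _).comp (toEuclidean (E := E)).symm.continuous).sub
          continuous_const) fun j z => (hp j _).sub_const _
  borelize E
  let b := Module.finBasis ℝ E
  have hj : ∀ j, Measurable (Function.uncurry fun (l : E) x => p j x l) := fun j =>
    measurable_uncurry_of_continuous_of_measurable (fun x => seminorm_cont _) (hp j)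
  have hq : ∀ j i, Measurable fun x => p j x (q x (b i)) := fun j i =>
    (hj j).comp ((q1.apply_continuousLinearMap (b i)).prodMk measurable_id)
  refine ⟨q, K, fun x => ∑ i, ‖(b.coord i).toContinuousLinearMap‖ * ⨆ j, p j x (q x (b i)), q1,
    Finset.measurable_fun_sum _ fun i _ => (Measurable.iSup fun j => hq j i).const_mul _, q2, q3, q4,
    fun x => ⟨Finset.sum_nonneg fun i _ => mul_nonneg (norm_nonneg _)
      (Real.iSup_nonneg fun j => apply_nonneg _ _), fun v hv j => ?_⟩⟩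
  have e : v = ∑ i, b.repr v i • q x (b i) := by
    conv_lhs => rw [← q4 x v hv, ← b.sum_repr v, map_sum]
    simp only [map_smul]
  conv_lhs => rw [e]
  rw [Finset.sum_mul]
  refine (Finset.le_sum_of_subadditive (p j x) (map_zero _).le (map_add_le_add _) _ _).trans
    (Finset.sum_le_sum fun i _ => ?_)
  rw [map_smul_eq_mul, mul_right_comm]
  obtain ⟨C, hC⟩ := q3 x (b i)
  exact mul_le_mul ((b.coord i).toContinuousLinearMap.le_opNorm v)
    (le_ciSup (f := fun j => p j x (q x (b i))) ⟨C, by rintro _ ⟨j, rfl⟩; exact hC j⟩ j)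
    (apply_nonneg _ _) (by positivity)

theorem msub_bddSub {p : ℕ → X → Seminorm ℝ E} (hp : ∀ j l, Measurable fun x => p j x l) :
    MSub μ fun x => bddSub fun j => p j x := by
  obtain ⟨q, K, C, q1, -, -, q3, q4, -⟩ := msub_bdd hp
  exact ⟨q, q1.aemeasurable, Eventually.of_forall fun x =>
    le_antisymm (by rintro _ ⟨v, rfl⟩; exact q3 x v) fun v hv => ⟨v, q4 x v hv⟩⟩

end Vale.Agent.P207Z.MET
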